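import Claimed.Agent.R282.K2.FreeKit

/-!
# Row 282, layer K2, package E4 (helper51): change of rings for the double quotient (`ℤ`, `ℚ`, `ZMod l`)

* `k2eBasis`  : the basis of words;  `k2eBC R n : F_ℤ → F_R` : base change;  `k2eProj R n d` : projection on the words of content `d`.
* `k2eProj_mem_dqIdeal` : the ideal is homogeneous.
* `k2e_clear_span`, `k2e_lift_span` : elements of spans over `ℚ` (up to a denominator) and over `ZMod l` come from `ℤ`.
* `k2e_dqne_rat_of_modl` (E4a): clear denominators, reduce modulo a large prime.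
* `k2e_dqne_modl_of_rat` (E4b): Nakayama for the (finitely generated) degree `d` part of `F_ℤ / I_ℤ`.
* `k2e_dqne_ext` : `DQne ℚ ↔ DQne K` for every field `K` of characteristic zero (additive retraction `K → ℚ`, coefficientwise).
-/

set_option autoImplicit false

namespace Claimed.Agent.R282

open Submodule

section Basis

variable (R : Type) [CommRing R] (n : ℕ)

/-- the basis of words -/
noncomputable def k2eBasis : Module.Basis (List (Fin n)) R (FreeAlgebra R (Fin n)) :=
  (FreeAlgebra.basisFreeMonoid R (Fin n)).reindex FreeMonoid.toList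

theorem k2eBasis_apply (w : List (Fin n)) : k2eBasis R n w = wordMon R n w := by
  rw [k2eBasis, Module.Basis.reindex_apply]
  exact fk_basis R n w

theorem k2eBasis_repr_wordMon (w : List (Fin n)) : (k2eBasis R n).repr (wordMon R n w) = Finsupp.single w 1 := by
  rw [← k2eBasis_apply, Module.Basis.repr_self]

/-- base change from `ℤ` -/
noncomputable def k2eBC : FreeAlgebra ℤ (Fin n) →ₐ[ℤ] FreeAlgebra R (Fin n) :=
  FreeAlgebra.lift ℤ (FreeAlgebra.ι R)

theorem k2eBC_fgen (i : Fin n) : k2eBC R n (fgen ℤ n i) = fgen R n i := by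
  simp [k2eBC, fgen]

theorem k2eBC_wordMon (w : List (Fin n)) : k2eBC R n (wordMon ℤ n w) = wordMon R n w := by
  induction w with
  | nil => simp [wordMon]
  | cons i w ih => rw [wordMon_cons, wordMon_cons, map_mul, k2eBC_fgen, ih]

theorem k2eBC_serreElt (i j : Fin n) : k2eBC R n (serreElt ℤ n i j) = serreElt R n i j := by
  unfold serreElt
  split_ifs
  · simp only [map_add, map_sub, map_mul, k2eBC_fgen, map_ofNat]
  · simp only [map_sub, map_mul, k2eBC_fgen]

theorem k2eBC_zsmul (z : ℤ) (y : FreeAlgebra ℤ (Fin n)) : k2eBC R n (z • y) = (z : R) • k2eBC R n y := by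
  rw [map_zsmul, Int.cast_smul_eq_zsmul]

/-- base change in coordinates -/
theorem k2eBC_repr (y : FreeAlgebra ℤ (Fin n)) (w : List (Fin n)) :
    (k2eBasis R n).repr (k2eBC R n y) w = (((k2eBasis ℤ n).repr y w : ℤ) : R) := by
  induction y using fk_induction with
  | hw w' =>
    rw [k2eBC_wordMon, k2eBasis_repr_wordMon, k2eBasis_repr_wordMon]
    by_cases h : w' = w
    · subst h; simp
    · simp [h]
  | h0 => simp
  | hadd x y hx hy => simp only [map_add, Finsupp.add_apply, hx, hy, Int.cast_add]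
  | hsmul c x hx =>
    change (k2eBasis R n).repr (k2eBC R n (c • x)) w = (((k2eBasis ℤ n).repr (c • x) w : ℤ) : R)
    rw [k2eBC_zsmul, map_smul, map_zsmul, Finsupp.smul_apply, Finsupp.smul_apply, hx, smul_eq_mul, smul_eq_mul,
      Int.cast_mul]

theorem dqIdeal_eq_span (a b : Fin n → ℕ) : dqIdeal R n a b = span R
    ({x | ∃ u v i j, x = u * serreElt R n i j * v} ∪ {x | ∃ u i, x = fgen R n i ^ (a i + 1) * u} ∪
      {x | ∃ u i, x = u * fgen R n i ^ (b i + 1)}) := by
  rw [span_union, span_union]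
  rfl

theorem k2eBC_mem_dqIdeal (a b : Fin n → ℕ) {y : FreeAlgebra ℤ (Fin n)} (h : y ∈ dqIdeal ℤ n a b) :
    k2eBC R n y ∈ dqIdeal R n a b := by
  have key : dqIdeal ℤ n a b ≤ ((dqIdeal R n a b).restrictScalars ℤ).comap (k2eBC R n).toLinearMap := by
    refine sup_le (sup_le (span_le.2 ?_) (span_le.2 ?_)) (span_le.2 ?_)
    · rintro _ ⟨u, v, i, j, rfl⟩
      show k2eBC R n (u * serreElt ℤ n i j * v) ∈ dqIdeal R n a b
      rw [map_mul, map_mul, k2eBC_serreElt]
      exact mem_sup_left (mem_sup_left (subset_span ⟨_, _, i, j, rfl⟩))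
    · rintro _ ⟨u, i, rfl⟩
      show k2eBC R n (fgen ℤ n i ^ (a i + 1) * u) ∈ dqIdeal R n a b
      rw [map_mul, map_pow, k2eBC_fgen]
      exact mem_sup_left (mem_sup_right (subset_span ⟨_, i, rfl⟩))
    · rintro _ ⟨u, i, rfl⟩
      show k2eBC R n (u * fgen ℤ n i ^ (b i + 1)) ∈ dqIdeal R n a b
      rw [map_mul, map_pow, k2eBC_fgen]
      exact mem_sup_right (subset_span ⟨_, i, rfl⟩)
  exact key h

/-! ### the projection on one degree -/

/-- the projection on the span of the words of content `d` -/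
noncomputable def k2eProj (d : Fin n → ℕ) : FreeAlgebra R (Fin n) →ₗ[R] FreeAlgebra R (Fin n) :=
  (k2eBasis R n).constr R (fun w => if ∀ i, w.count i = d i then wordMon R n w else 0)

theorem k2eProj_wordMon (d : Fin n → ℕ) (w : List (Fin n)) :
    k2eProj R n d (wordMon R n w) = if ∀ i, w.count i = d i then wordMon R n w else 0 := by
  rw [← k2eBasis_apply, k2eProj, Module.Basis.constr_basis, k2eBasis_apply]

theorem k2eProj_wordMon_of (d : Fin n → ℕ) {w : List (Fin n)} (hw : ∀ i, w.count i = d i) :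
    k2eProj R n d (wordMon R n w) = wordMon R n w := by
  rw [k2eProj_wordMon, if_pos hw]

/-- the span of the words of content `d` -/
noncomputable def k2eDeg (d : Fin n → ℕ) : Submodule R (FreeAlgebra R (Fin n)) :=
  span R (wordMon R n '' {w | ∀ i, w.count i = d i})

theorem k2eProj_mem_deg (d : Fin n → ℕ) (x : FreeAlgebra R (Fin n)) : k2eProj R n d x ∈ k2eDeg R n d := by
  induction x using fk_induction with
  | hw w =>
    rw [k2eProj_wordMon]
    split_ifs with h
    · exact subset_span ⟨w, h, rfl⟩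
    · exact zero_mem _
  | h0 => rw [map_zero]; exact zero_mem _
  | hadd x y hx hy => rw [map_add]; exact add_mem hx hy
  | hsmul c x hx => rw [map_smul]; exact smul_mem _ c hx

/-- a combination of words with the same content is mapped to itself or to `0` -/
theorem k2eProj_serre_word (d : Fin n → ℕ) (u v : List (Fin n)) (i j : Fin n) :
    k2eProj R n d (wordMon R n u * serreElt R n i j * wordMon R n v) = 0 ∨
    k2eProj R n d (wordMon R n u * serreElt R n i j * wordMon R n v) =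
      wordMon R n u * serreElt R n i j * wordMon R n v := by
  unfold serreElt
  split_ifs with hij
  · have e : wordMon R n u * (fgen R n i * fgen R n i * fgen R n j - 2 * (fgen R n i * fgen R n j * fgen R n i)
        + fgen R n j * fgen R n i * fgen R n i) * wordMon R n v
        = wordMon R n (u ++ i :: i :: j :: v) - (wordMon R n (u ++ i :: j :: i :: v) + wordMon R n (u ++ i :: j :: i :: v))
          + wordMon R n (u ++ j :: i :: i :: v) := by
      simp only [wordMon_append, wordMon_cons]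
      noncomm_ring
    have c1 : (∀ t, (u ++ i :: j :: i :: v).count t = d t) ↔ ∀ t, (u ++ i :: i :: j :: v).count t = d t := by
      refine forall_congr' fun t => ?_
      rw [show (u ++ i :: j :: i :: v).count t = (u ++ i :: i :: j :: v).count t by
        simp only [List.count_append, List.count_cons]; ring]
    have c2 : (∀ t, (u ++ j :: i :: i :: v).count t = d t) ↔ ∀ t, (u ++ i :: i :: j :: v).count t = d t := by
      refine forall_congr' fun t => ?_
      rw [show (u ++ j :: i :: i :: v).count t = (u ++ i :: i :: j :: v).count t by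
        simp only [List.count_append, List.count_cons]; ring]
    rw [e]
    simp only [map_add, map_sub, k2eProj_wordMon, c1, c2]
    by_cases h : ∀ t, (u ++ i :: i :: j :: v).count t = d t
    · right; simp only [if_pos h]
    · left; simp only [if_neg h]; simp
  · have e : wordMon R n u * (fgen R n i * fgen R n j - fgen R n j * fgen R n i) * wordMon R n v
        = wordMon R n (u ++ i :: j :: v) - wordMon R n (u ++ j :: i :: v) := by
      simp only [wordMon_append, wordMon_cons]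
      noncomm_ring
    have c1 : (∀ t, (u ++ j :: i :: v).count t = d t) ↔ ∀ t, (u ++ i :: j :: v).count t = d t := by
      refine forall_congr' fun t => ?_
      rw [show (u ++ j :: i :: v).count t = (u ++ i :: j :: v).count t by
        simp only [List.count_append, List.count_cons]; ring]
    rw [e]
    simp only [map_sub, k2eProj_wordMon, c1]
    by_cases h : ∀ t, (u ++ i :: j :: v).count t = d t
    · right; simp only [if_pos h]
    · left; simp only [if_neg h]; simp

/-- the ideal is homogeneous -/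
theorem k2eProj_mem_dqIdeal (a b d : Fin n → ℕ) {x : FreeAlgebra R (Fin n)} (hx : x ∈ dqIdeal R n a b) :
    k2eProj R n d x ∈ dqIdeal R n a b := by
  let f : FreeAlgebra R (Fin n) →ₗ[R] (FreeAlgebra R (Fin n) ⧸ dqIdeal R n a b) :=
    (dqIdeal R n a b).mkQ ∘ₗ k2eProj R n d
  have hf : ∀ y, f y = 0 ↔ k2eProj R n d y ∈ dqIdeal R n a b := fun y => by
    simp only [f, LinearMap.comp_apply, mkQ_apply, Quotient.mk_eq_zero]
  have key : dqIdeal R n a b ≤ LinearMap.ker f := by
    refine sup_le (sup_le (span_le.2 ?_) (span_le.2 ?_)) (span_le.2 ?_)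
    · rintro _ ⟨u, v, i, j, rfl⟩
      refine fk_two_sided f _ (fun u v => ?_) u v
      rw [hf]
      rcases k2eProj_serre_word R n d u v i j with h | h
      · rw [h]; exact zero_mem _
      · rw [h]; exact mem_sup_left (mem_sup_left (subset_span ⟨_, _, i, j, rfl⟩))
    · rintro _ ⟨u, i, rfl⟩
      refine fk_right f _ (fun v => ?_) u
      rw [hf, ← wordMon_replicate, ← wordMon_append, k2eProj_wordMon]
      split_ifs
      · rw [wordMon_append, wordMon_replicate]
        exact mem_sup_left (mem_sup_right (subset_span ⟨_, i, rfl⟩))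
      · exact zero_mem _
    · rintro _ ⟨u, i, rfl⟩
      refine fk_left f _ (fun v => ?_) u
      rw [hf, ← wordMon_replicate, ← wordMon_append, k2eProj_wordMon]
      split_ifs
      · rw [wordMon_append, wordMon_replicate]
        exact mem_sup_right (subset_span ⟨_, i, rfl⟩)
      · exact zero_mem _
  exact (hf x).1 (key hx)

end Basis

variable (n : ℕ)

theorem k2e_finite_words (d : Fin n → ℕ) : {w : List (Fin n) | ∀ i, w.count i = d i}.Finite := by
  refine (List.finite_length_eq (Fin n) (∑ i, d i)).subset fun w hw => ?_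
  have h := Multiset.sum_count_eq_card (s := Finset.univ) (m := (w : Multiset (Fin n))) (fun a _ => Finset.mem_univ a)
  simp only [Multiset.coe_count, Multiset.coe_card] at h
  show w.length = ∑ i, d i
  rw [← h]
  exact Finset.sum_congr rfl fun i _ => hw i

/-! ### `ℚ` and `ℤ` -/

theorem k2eBC_injective_rat : Function.Injective (k2eBC ℚ n) := by
  rw [injective_iff_map_eq_zero]
  intro y hy
  apply (k2eBasis ℤ n).repr.injective
  ext w
  have := k2eBC_repr ℚ n y w
  rw [hy] at this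
  simpa using this.symm

/-- clearing denominators in a span -/
theorem k2e_clear_span (J : Submodule ℤ (FreeAlgebra ℤ (Fin n))) (S : Set (FreeAlgebra ℚ (Fin n)))
    (hS : ∀ s ∈ S, ∃ (N : ℕ) (y : FreeAlgebra ℤ (Fin n)), N ≠ 0 ∧ y ∈ J ∧ (N : ℚ) • s = k2eBC ℚ n y)
    {x : FreeAlgebra ℚ (Fin n)} (hx : x ∈ span ℚ S) :
    ∃ (N : ℕ) (y : FreeAlgebra ℤ (Fin n)), N ≠ 0 ∧ y ∈ J ∧ (N : ℚ) • x = k2eBC ℚ n y := by
  induction hx using span_induction with
  | mem x hx => exact hS x hx
  | zero => exact ⟨1, 0, one_ne_zero, zero_mem _, by simp⟩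
  | add x x' _ _ hx hx' =>
    obtain ⟨N, y, hN, hy, e⟩ := hx
    obtain ⟨N', y', hN', hy', e'⟩ := hx'
    refine ⟨N * N', (N' : ℤ) • y + (N : ℤ) • y', Nat.mul_ne_zero hN hN',
      add_mem (J.smul_mem _ hy) (J.smul_mem _ hy'), ?_⟩
    rw [map_add, k2eBC_zsmul, k2eBC_zsmul, ← e, ← e', smul_smul, smul_smul, smul_add]
    push_cast
    rw [mul_comm (N' : ℚ)]
  | smul c x _ hx =>
    obtain ⟨N, y, hN, hy, e⟩ := hx
    refine ⟨N * c.den, c.num • y, Nat.mul_ne_zero hN c.den_ne_zero, J.smul_mem _ hy, ?_⟩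
    rw [k2eBC_zsmul, ← e, smul_smul, smul_smul]
    congr 1
    push_cast
    rw [← Rat.mul_den_eq_num c]
    ring

theorem k2e_clear (u : FreeAlgebra ℚ (Fin n)) :
    ∃ (N : ℕ) (y : FreeAlgebra ℤ (Fin n)), N ≠ 0 ∧ (N : ℚ) • u = k2eBC ℚ n y := by
  obtain ⟨N, y, hN, -, e⟩ := k2e_clear_span n ⊤ (Set.range (wordMon ℚ n))
    (by rintro _ ⟨w, rfl⟩; exact ⟨1, wordMon ℤ n w, one_ne_zero, trivial, by rw [k2eBC_wordMon]; simp⟩)
    (x := u) (by rw [fk_span]; trivial)
  exact ⟨N, y, hN, e⟩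

theorem k2e_clear_ideal (a b : Fin n → ℕ) {x : FreeAlgebra ℚ (Fin n)} (hx : x ∈ dqIdeal ℚ n a b) :
    ∃ (N : ℕ) (y : FreeAlgebra ℤ (Fin n)), N ≠ 0 ∧ y ∈ dqIdeal ℤ n a b ∧ (N : ℚ) • x = k2eBC ℚ n y := by
  rw [dqIdeal_eq_span] at hx
  refine k2e_clear_span n _ _ ?_ hx
  rintro _ ((⟨u, v, i, j, rfl⟩ | ⟨u, i, rfl⟩) | ⟨u, i, rfl⟩)
  · obtain ⟨N, u', hN, e⟩ := k2e_clear n u
    obtain ⟨N', v', hN', e'⟩ := k2e_clear n v
    refine ⟨N * N', u' * serreElt ℤ n i j * v', Nat.mul_ne_zero hN hN',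
      mem_sup_left (mem_sup_left (subset_span ⟨_, _, i, j, rfl⟩)), ?_⟩
    rw [map_mul, map_mul, k2eBC_serreElt, ← e, ← e', smul_mul_assoc, smul_mul_assoc, mul_smul_comm, smul_smul]
    push_cast
    rfl
  · obtain ⟨N, u', hN, e⟩ := k2e_clear n u
    refine ⟨N, fgen ℤ n i ^ (a i + 1) * u', hN, mem_sup_left (mem_sup_right (subset_span ⟨_, i, rfl⟩)), ?_⟩
    rw [map_mul, map_pow, k2eBC_fgen, ← e, mul_smul_comm]
  · obtain ⟨N, u', hN, e⟩ := k2e_clear n u
    refine ⟨N, u' * fgen ℤ n i ^ (b i + 1), hN, mem_sup_right (subset_span ⟨_, i, rfl⟩), ?_⟩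
    rw [map_mul, map_pow, k2eBC_fgen, ← e, smul_mul_assoc]

/-! ### `ZMod l` and `ℤ` -/

/-- lifting elements of a span -/
theorem k2e_lift_span (l : ℕ) (J : Submodule ℤ (FreeAlgebra ℤ (Fin n))) (S : Set (FreeAlgebra (ZMod l) (Fin n)))
    (hS : ∀ s ∈ S, ∃ y ∈ J, k2eBC (ZMod l) n y = s)
    {x : FreeAlgebra (ZMod l) (Fin n)} (hx : x ∈ span (ZMod l) S) : ∃ y ∈ J, k2eBC (ZMod l) n y = x := by
  induction hx using span_induction with
  | mem x hx => exact hS x hx
  | zero => exact ⟨0, zero_mem _, map_zero _⟩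
  | add x x' _ _ hx hx' =>
    obtain ⟨y, hy, rfl⟩ := hx
    obtain ⟨y', hy', rfl⟩ := hx'
    exact ⟨y + y', add_mem hy hy', map_add _ _ _⟩
  | smul c x _ hx =>
    obtain ⟨y, hy, rfl⟩ := hx
    obtain ⟨z, rfl⟩ := ZMod.intCast_surjective c
    exact ⟨z • y, J.smul_mem _ hy, k2eBC_zsmul _ n z y⟩

theorem k2eBC_surjective_zmod (l : ℕ) : Function.Surjective (k2eBC (ZMod l) n) := by
  intro x
  obtain ⟨y, -, e⟩ := k2e_lift_span n l ⊤ (Set.range (wordMon (ZMod l) n))
    (by rintro _ ⟨w, rfl⟩; exact ⟨wordMon ℤ n w, trivial, k2eBC_wordMon _ n w⟩)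
    (x := x) (by rw [fk_span]; trivial)
  exact ⟨y, e⟩

theorem k2e_lift_ideal (l : ℕ) (a b : Fin n → ℕ) {x : FreeAlgebra (ZMod l) (Fin n)}
    (hx : x ∈ dqIdeal (ZMod l) n a b) : ∃ y ∈ dqIdeal ℤ n a b, k2eBC (ZMod l) n y = x := by
  rw [dqIdeal_eq_span] at hx
  refine k2e_lift_span n l _ _ ?_ hx
  rintro _ ((⟨u, v, i, j, rfl⟩ | ⟨u, i, rfl⟩) | ⟨u, i, rfl⟩)
  · obtain ⟨u', rfl⟩ := k2eBC_surjective_zmod n l u
    obtain ⟨v', rfl⟩ := k2eBC_surjective_zmod n l v
    exact ⟨u' * serreElt ℤ n i j * v', mem_sup_left (mem_sup_left (subset_span ⟨_, _, i, j, rfl⟩)), by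
      rw [map_mul, map_mul, k2eBC_serreElt]⟩
  · obtain ⟨u', rfl⟩ := k2eBC_surjective_zmod n l u
    exact ⟨fgen ℤ n i ^ (a i + 1) * u', mem_sup_left (mem_sup_right (subset_span ⟨_, i, rfl⟩)), by
      rw [map_mul, map_pow, k2eBC_fgen]⟩
  · obtain ⟨u', rfl⟩ := k2eBC_surjective_zmod n l u
    exact ⟨u' * fgen ℤ n i ^ (b i + 1), mem_sup_right (subset_span ⟨_, i, rfl⟩), by
      rw [map_mul, map_pow, k2eBC_fgen]⟩

theorem k2eBC_ker_zmod (l : ℕ) (y : FreeAlgebra ℤ (Fin n)) (h : k2eBC (ZMod l) n y = 0) :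
    ∃ z : FreeAlgebra ℤ (Fin n), y = (l : ℤ) • z := by
  have hdvd : ∀ w, (l : ℤ) ∣ (k2eBasis ℤ n).repr y w := by
    intro w
    have := k2eBC_repr (ZMod l) n y w
    rw [h] at this
    exact (ZMod.intCast_zmod_eq_zero_iff_dvd _ l).1 (by simpa using this.symm)
  refine ⟨(k2eBasis ℤ n).repr.symm (((k2eBasis ℤ n).repr y).mapRange (fun t => t / (l : ℤ)) (by simp)), ?_⟩
  apply (k2eBasis ℤ n).repr.injective
  ext w
  rw [map_smul, LinearEquiv.apply_symm_apply, Finsupp.smul_apply, Finsupp.mapRange_apply, smul_eq_mul]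
  exact (Int.mul_ediv_cancel' (hdvd w)).symm

/-! ### E4 -/

/-- E4a: non-vanishing modulo infinitely many primes gives non-vanishing over `ℚ` -/
theorem k2e_dqne_rat_of_modl (n : ℕ) (a b d : Fin n → ℕ)
    (h : ∀ B : ℕ, ∃ l, B < l ∧ l.Prime ∧ DQne (ZMod l) n a b d) : DQne ℚ n a b d := by
  by_contra hcon
  have hN : ∀ w : List (Fin n), ∃ N : ℕ, N ≠ 0 ∧
      ((∀ i, w.count i = d i) → (N : ℤ) • wordMon ℤ n w ∈ dqIdeal ℤ n a b) := by
    intro w
    by_cases hw : ∀ i, w.count i = d i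
    · have hmem : wordMon ℚ n w ∈ dqIdeal ℚ n a b := by
        by_contra hn
        exact hcon ⟨w, hw, hn⟩
      obtain ⟨N, y, hN, hy, e⟩ := k2e_clear_ideal n a b hmem
      refine ⟨N, hN, fun _ => ?_⟩
      have : (N : ℤ) • wordMon ℤ n w = y := by
        apply k2eBC_injective_rat n
        rw [k2eBC_zsmul, k2eBC_wordMon, ← e]
        simp
      rw [this]
      exact hy
    · exact ⟨1, one_ne_zero, fun h => absurd h hw⟩
  choose N hN0 hN using hN
  obtain ⟨B, hB⟩ := ((k2e_finite_words n d).image N).bddAbove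
  obtain ⟨l, hlB, hl, w, hw, hwn⟩ := h B
  have : Fact l.Prime := ⟨hl⟩
  apply hwn
  have h1 := k2eBC_mem_dqIdeal (ZMod l) n a b (hN w hw)
  rw [k2eBC_zsmul, k2eBC_wordMon] at h1
  refine (Submodule.smul_mem_iff _ ?_).1 h1
  intro h0
  have h0' : ((N w : ℕ) : ZMod l) = 0 := by exact_mod_cast h0
  have h2 := Nat.le_of_dvd (Nat.pos_of_ne_zero (hN0 w)) ((ZMod.natCast_eq_zero_iff _ _).1 h0')
  have h3 : N w ≤ B := hB ⟨w, hw, rfl⟩
  omega

/-- E4b: non-vanishing over `ℚ` gives non-vanishing modulo every prime -/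
theorem k2e_dqne_modl_of_rat (n : ℕ) (a b d : Fin n → ℕ) (h : DQne ℚ n a b d) (l : ℕ) (hl : l.Prime) :
    DQne (ZMod l) n a b d := by
  by_contra hcon
  have hall : ∀ w : List (Fin n), (∀ i, w.count i = d i) → wordMon (ZMod l) n w ∈ dqIdeal (ZMod l) n a b := by
    intro w hw
    by_contra hn
    exact hcon ⟨w, hw, hn⟩
  -- Nakayama
  let I := dqIdeal ℤ n a b
  let Nb : Submodule ℤ (FreeAlgebra ℤ (Fin n) ⧸ I) := (k2eDeg ℤ n d).map I.mkQ
  have hfg : Nb.FG := by
    refine Submodule.FG.map _ ?_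
    exact Submodule.fg_span ((k2e_finite_words n d).image _)
  have hle : Nb ≤ (Ideal.span {(l : ℤ)}) • Nb := by
    rw [Submodule.map_le_iff_le_comap]
    refine span_le.2 ?_
    rintro _ ⟨w, hw, rfl⟩
    obtain ⟨y, hy, e⟩ := k2e_lift_ideal n l a b (hall w hw)
    obtain ⟨z, hz⟩ := k2eBC_ker_zmod n l (wordMon ℤ n w - y) (by rw [map_sub, e, k2eBC_wordMon, sub_self])
    have e2 : wordMon ℤ n w = k2eProj ℤ n d y + (l : ℤ) • k2eProj ℤ n d z := by
      have := congrArg (k2eProj ℤ n d) hz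
      rw [map_sub, map_smul, k2eProj_wordMon_of ℤ n d hw] at this
      rw [← this]; abel
    show I.mkQ (wordMon ℤ n w) ∈ (Ideal.span {(l : ℤ)}) • Nb
    rw [e2, map_add, map_smul, (Submodule.Quotient.mk_eq_zero I).2 (k2eProj_mem_dqIdeal ℤ n a b d hy) |> fun h => (show I.mkQ _ = 0 from h), zero_add]
    exact Submodule.smul_mem_smul (Ideal.mem_span_singleton_self _) (mem_map_of_mem (k2eProj_mem_deg ℤ n d z))
  obtain ⟨r, hr1, hr⟩ := Submodule.exists_sub_one_mem_and_smul_eq_zero_of_fg_of_le_smul _ Nb hfg hle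
  have hr0 : r ≠ 0 := by
    rintro rfl
    rw [Ideal.mem_span_singleton] at hr1
    have : (l : ℤ) ∣ 1 := by simpa using hr1
    have := Int.natCast_dvd_natCast.1 (by simpa using this : (l : ℤ) ∣ ((1 : ℕ) : ℤ))
    exact hl.one_lt.ne' (Nat.dvd_one.1 this)
  obtain ⟨w, hw, hwn⟩ := h
  apply hwn
  have h1 : r • wordMon ℤ n w ∈ I := by
    have := hr (I.mkQ (wordMon ℤ n w)) (mem_map_of_mem (subset_span ⟨w, hw, rfl⟩))
    rw [← map_smul] at this
    exact (Submodule.Quotient.mk_eq_zero I).1 this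
  have h2 := k2eBC_mem_dqIdeal ℚ n a b h1
  rw [k2eBC_zsmul, k2eBC_wordMon] at h2
  exact (Submodule.smul_mem_iff _ (by exact_mod_cast hr0)).1 h2

/-! ### fields of characteristic zero -/

section Ext

variable (K : Type) [Field K] (n : ℕ)

/-- coefficientwise application of an additive map `K → ℚ` -/
noncomputable def k2eRet (ρ : K →+ ℚ) : FreeAlgebra K (Fin n) →+ FreeAlgebra ℚ (Fin n) :=
  ((k2eBasis ℚ n).repr.symm.toLinearMap.toAddMonoidHom.comp (Finsupp.mapRange.addMonoidHom ρ)).comp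
    (k2eBasis K n).repr.toLinearMap.toAddMonoidHom

theorem k2eRet_repr (ρ : K →+ ℚ) (x : FreeAlgebra K (Fin n)) (w : List (Fin n)) :
    (k2eBasis ℚ n).repr (k2eRet K n ρ x) w = ρ ((k2eBasis K n).repr x w) := by
  simp [k2eRet]

theorem k2eRet_smul_BC (ρ : K →+ ℚ) (c : K) (y : FreeAlgebra ℤ (Fin n)) :
    k2eRet K n ρ (c • k2eBC K n y) = ρ c • k2eBC ℚ n y := by
  apply (k2eBasis ℚ n).repr.injective
  ext w
  rw [k2eRet_repr, map_smul, map_smul, Finsupp.smul_apply, Finsupp.smul_apply, k2eBC_repr, k2eBC_repr, smul_eq_mul,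
    smul_eq_mul, mul_comm, ← zsmul_eq_mul, map_zsmul, zsmul_eq_mul, mul_comm]

/-- the ideal over any ring is spanned by the image of the ideal over `ℤ` -/
theorem dqIdeal_le_span_BC (R : Type) [CommRing R] (a b : Fin n → ℕ) :
    dqIdeal R n a b ≤ span R (k2eBC R n '' (dqIdeal ℤ n a b : Set (FreeAlgebra ℤ (Fin n)))) := by
  set T := span R (k2eBC R n '' (dqIdeal ℤ n a b : Set (FreeAlgebra ℤ (Fin n)))) with hT
  have hf : ∀ y, T.mkQ y = 0 ↔ y ∈ T := fun y => by simp only [mkQ_apply, Quotient.mk_eq_zero]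
  have key : dqIdeal R n a b ≤ LinearMap.ker T.mkQ := by
    refine sup_le (sup_le (span_le.2 ?_) (span_le.2 ?_)) (span_le.2 ?_)
    · rintro _ ⟨u, v, i, j, rfl⟩
      refine fk_two_sided T.mkQ _ (fun u v => ?_) u v
      rw [hf]
      refine subset_span ⟨wordMon ℤ n u * serreElt ℤ n i j * wordMon ℤ n v,
        mem_sup_left (mem_sup_left (subset_span ⟨_, _, i, j, rfl⟩)), ?_⟩
      rw [map_mul, map_mul, k2eBC_serreElt, k2eBC_wordMon, k2eBC_wordMon]
    · rintro _ ⟨u, i, rfl⟩
      refine fk_right T.mkQ _ (fun v => ?_) u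
      rw [hf]
      refine subset_span ⟨fgen ℤ n i ^ (a i + 1) * wordMon ℤ n v,
        mem_sup_left (mem_sup_right (subset_span ⟨_, i, rfl⟩)), ?_⟩
      rw [map_mul, map_pow, k2eBC_fgen, k2eBC_wordMon]
    · rintro _ ⟨u, i, rfl⟩
      refine fk_left T.mkQ _ (fun v => ?_) u
      rw [hf]
      refine subset_span ⟨wordMon ℤ n v * fgen ℤ n i ^ (b i + 1), mem_sup_right (subset_span ⟨_, i, rfl⟩), ?_⟩
      rw [map_mul, map_pow, k2eBC_fgen, k2eBC_wordMon]
  intro x hx
  exact (hf x).1 (key hx)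

theorem k2eRet_mem_dqIdeal (ρ : K →+ ℚ) (a b : Fin n → ℕ) {x : FreeAlgebra K (Fin n)}
    (hx : x ∈ dqIdeal K n a b) : k2eRet K n ρ x ∈ dqIdeal ℚ n a b := by
  have h : ∀ c : K, k2eRet K n ρ (c • x) ∈ dqIdeal ℚ n a b := by
    have hx' := dqIdeal_le_span_BC n K a b hx
    clear hx
    induction hx' using span_induction with
    | mem x hx =>
      obtain ⟨y, hy, rfl⟩ := hx
      intro c
      rw [k2eRet_smul_BC]
      exact smul_mem _ _ (k2eBC_mem_dqIdeal ℚ n a b hy)
    | zero => intro c; rw [smul_zero, map_zero]; exact zero_mem _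
    | add x y _ _ hx hy => intro c; rw [smul_add, map_add]; exact add_mem (hx c) (hy c)
    | smul c' x _ hx => intro c; rw [smul_smul]; exact hx _
  simpa using h 1

/-- the double quotient does not change under extension of the field `ℚ` -/
theorem k2e_dqne_ext [CharZero K] (a b d : Fin n → ℕ) : DQne ℚ n a b d ↔ DQne K n a b d := by
  constructor
  · rintro ⟨w, hw, hwn⟩
    refine ⟨w, hw, fun hmem => hwn ?_⟩
    obtain ⟨g, hg⟩ := LinearMap.exists_leftInverse_of_injective (Algebra.linearMap ℚ K)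
      (LinearMap.ker_eq_bot.2 (algebraMap ℚ K).injective)
    have hg1 : g 1 = 1 := by
      have := congrArg (fun f : ℚ →ₗ[ℚ] ℚ => f 1) hg
      simpa using this
    have h1 := k2eRet_mem_dqIdeal K n g.toAddMonoidHom a b hmem
    have h2 := k2eRet_smul_BC K n g.toAddMonoidHom 1 (wordMon ℤ n w)
    rw [one_smul, k2eBC_wordMon, k2eBC_wordMon] at h2
    rw [h2] at h1
    simpa [hg1] using h1
  · rintro ⟨w, hw, hwn⟩
    refine ⟨w, hw, fun hmem => hwn ?_⟩
    obtain ⟨N, y, hN, hy, e⟩ := k2e_clear_ideal n a b hmem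
    have e' : (N : ℤ) • wordMon ℤ n w = y := by
      apply k2eBC_injective_rat n
      rw [k2eBC_zsmul, k2eBC_wordMon, ← e]
      simp
    have h1 := k2eBC_mem_dqIdeal K n a b hy
    rw [← e', k2eBC_zsmul, k2eBC_wordMon] at h1
    exact (Submodule.smul_mem_iff _ (by exact_mod_cast hN)).1 h1

end Ext

end Claimed.Agent.R282
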