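import Claimed.Agent.R282.K2.AContracts
import Claimed.Agent.R282.K2.BCD
import Claimed.Agent.R282.K2.C.Main
import Claimed.Agent.R282.K2.DMain
import Claimed.Agent.R282.K2.S6.Dual
import Claimed.Agent.R282.K2.FreeKit
import Claimed.Agent.R282.K2.E.Rings

/-!
# Row 282, layer K2, package E (helper51): THE TOP GLUE OF K2.   NO sorry of its own.

`k2e_fwd`, `k2e_bwd` (= `k2_fwd`, `k2_bwd` of `K2/Contracts.lean`) are proved from
* package A: `K2/AContracts.lean` (helper132) + `s6_dual_top` (`K2/S6/Dual.lean`), collected in `k2a_exists_delta`, `k2a_str`;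
* packages B, C, D: `k2b_bricks` (`K2/BCD.lean`), `k2c_span` (`K2/C/Main.lean`), `k2d_main` (`K2/DMain.lean`), collected in `k2_family`;
* E4 (change of rings `ℚ ↔ ZMod l`): `K2/E/Rings.lean`.

Sections:
1. `k2e_tri`, `k2e_core`: abstract linear algebra.  Let `δ_m` (`m ∈ T`) be functionals killing `S`, let `|T|` vectors `P_m` span `W_d`
   modulo `S`, and let for every test `τ` the matrix `δ_m (e_τ m')` be triangular with non-zero diagonal for an injective labelling
   `s_τ : T → α`.  If `e_τ m ∈ I_τ` for the `τ`-bad `m` (an upper set for `s_τ`) and every `m` is bad for some test, then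
   `W_d ⊆ S + ∑_τ I_τ`.  (No induction on the degree: E2 of the plan is not needed.)
2. `k2e_exists_field`: `GaloisField p ((l-1)(B+1))`.
3. `IsDelta` and the collected inputs.
4. `k2e_dqne_of_mod`, `k2e_exists_mod`: modules versus the double quotient over `ZMod l`.
5. `k2e_fwd`, `k2e_bwd`.
-/

set_option autoImplicit false

namespace Claimed.Agent.R282

open Submodule

/-! ## 1. abstract linear algebra -/


/-- triangular elimination -/
theorem k2e_tri {K T α : Type*} [Field K] [Fintype T] [LinearOrder α] (s : T → α)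
    (hs : Function.Injective s) (A : T → T → K) (hd : ∀ m, A m m ≠ 0)
    (hz : ∀ m m', s m < s m' → A m m' = 0) (S : T → Prop) (hS : ∀ m m', S m → s m ≤ s m' → S m')
    (a : T → K) (ha : ∀ m', S m' → ∑ m, a m * A m m' = 0) : ∀ m, S m → a m = 0 := by
  classical
  by_contra hcon
  push Not at hcon
  obtain ⟨m₁, hm₁, ham₁⟩ := hcon
  obtain ⟨m₀, hm₀, hmax⟩ := Finset.exists_max_image (Finset.univ.filter fun m => S m ∧ a m ≠ 0) s
    ⟨m₁, by simp [hm₁, ham₁]⟩
  simp only [Finset.mem_filter, Finset.mem_univ, true_and] at hm₀ hmax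
  have h := ha m₀ hm₀.1
  rw [Finset.sum_eq_single m₀] at h
  · exact (mul_ne_zero hm₀.2 (hd m₀)) h
  · intro m _ hne
    rcases lt_or_gt_of_ne (fun h' => hne (hs h')) with hlt | hgt
    · rw [hz m m₀ hlt, mul_zero]
    · have hSm : S m := hS m₀ m hm₀.1 hgt.le
      by_cases ham : a m = 0
      · rw [ham, zero_mul]
      · exact absurd (hmax m ⟨hSm, ham⟩) (not_le.2 hgt)
  · intro h'
    exact absurd (Finset.mem_univ m₀) h'

theorem k2e_core {K F T J α : Type*} [Field K] [AddCommGroup F] [Module K F] [Fintype T] [LinearOrder α]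
    (Wd : Set F) (S : Submodule K F) (P : T → F) (hP : ∀ w ∈ Wd, w ∈ span K (Set.range P) ⊔ S)
    (δ : T → F →ₗ[K] K) (hδ : ∀ m, S ≤ LinearMap.ker (δ m))
    (s : J → T → α) (hs : ∀ τ, Function.Injective (s τ))
    (e : J → T → F) (he : ∀ τ m, e τ m ∈ Wd)
    (hne : ∀ τ m, δ m (e τ m) ≠ 0) (hz : ∀ τ m m', s τ m < s τ m' → δ m (e τ m') = 0)
    (I : J → Submodule K F) (Bad : J → T → Prop)
    (hup : ∀ τ m m', Bad τ m → s τ m ≤ s τ m' → Bad τ m')
    (hI : ∀ τ m, Bad τ m → e τ m ∈ I τ) (hbad : ∀ m, ∃ τ, Bad τ m) :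
    ∀ w ∈ Wd, w ∈ S ⊔ ⨆ τ, I τ := by
  classical
  intro w hw
  by_contra hcon
  obtain ⟨φ, hφw, hφ⟩ := Submodule.exists_le_ker_of_notMem hcon
  -- the functional attached to a coefficient vector
  let ψ : (T → K) → F →ₗ[K] K := fun a => ∑ m, a m • δ m
  have hψ : ∀ a x, ψ a x = ∑ m, a m * δ m x := by
    intro a x
    simp [ψ, LinearMap.sum_apply]
  -- a functional killing `S` and the `P m` kills `Wd`
  have kill : ∀ χ : F →ₗ[K] K, S ≤ LinearMap.ker χ → (∀ m, χ (P m) = 0) → ∀ x ∈ Wd, χ x = 0 := by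
    intro χ h1 h2 x hx
    have h3 : span K (Set.range P) ⊔ S ≤ LinearMap.ker χ := by
      refine sup_le (span_le.2 ?_) h1
      rintro _ ⟨m, rfl⟩
      exact h2 m
    exact h3 (hP x hx)
  have hψS : ∀ a, S ≤ LinearMap.ker (ψ a) := by
    intro a x hx
    rw [LinearMap.mem_ker, hψ]
    exact Finset.sum_eq_zero fun m _ => by rw [LinearMap.mem_ker.1 (hδ m hx), mul_zero]
  let Θ : (T → K) →ₗ[K] (T → K) :=
    { toFun := fun a m' => ψ a (P m')
      map_add' := by
        intro a b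
        funext m'
        simp only [hψ, Pi.add_apply, add_mul, Finset.sum_add_distrib]
      map_smul' := by
        intro c a
        funext m'
        simp only [hψ, Pi.smul_apply, smul_eq_mul, RingHom.id_apply, Finset.mul_sum, mul_assoc] }
  have hΘ : ∀ a m', Θ a m' = ψ a (P m') := fun _ _ => rfl
  have hinj : Function.Injective Θ := by
    rw [← LinearMap.ker_eq_bot, LinearMap.ker_eq_bot']
    intro a ha
    have h1 : ∀ x ∈ Wd, ψ a x = 0 := kill (ψ a) (hψS a) fun m => by rw [← hΘ, ha]; rfl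
    funext m
    obtain ⟨τ, -⟩ := hbad m
    refine k2e_tri (s τ) (hs τ) (fun m m' => δ m (e τ m')) (hne τ) (hz τ) (fun _ => True)
      (fun _ _ _ _ => trivial) a (fun m' _ => ?_) m trivial
    rw [← hψ]
    exact h1 _ (he τ m')
  obtain ⟨a, ha⟩ := (LinearMap.injective_iff_surjective.1 hinj) fun m' => φ (P m')
  have hS' : S ≤ LinearMap.ker φ := le_sup_left.trans hφ
  have hdiff : ∀ x ∈ Wd, φ x = ψ a x := by
    intro x hx
    have := kill (φ - ψ a) (fun y hy => by
      rw [LinearMap.mem_ker, LinearMap.sub_apply, LinearMap.mem_ker.1 (hS' hy),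
        LinearMap.mem_ker.1 (hψS a hy), sub_zero]) (fun m => by
      rw [LinearMap.sub_apply, ← hΘ, ha, sub_self]) x hx
    rwa [LinearMap.sub_apply, sub_eq_zero] at this
  have hzero : ∀ m, a m = 0 := by
    intro m
    obtain ⟨τ, hτ⟩ := hbad m
    refine k2e_tri (s τ) (hs τ) (fun m m' => δ m (e τ m')) (hne τ) (hz τ) (Bad τ) (hup τ) a
      (fun m' hm' => ?_) m hτ
    rw [← hψ, ← hdiff _ (he τ m')]
    exact hφ (mem_sup_right (mem_iSup_of_mem τ (hI τ m' hm')))
  apply hφw
  rw [hdiff w hw, hψ]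
  exact Finset.sum_eq_zero fun m _ => by rw [hzero m, zero_mul]

/-! ## 2. the finite field -/

/-- a finite field of odd characteristic, with at least `B` elements, whose order is `1` mod `l` -/
theorem k2e_exists_field (l : ℕ) (hl : l.Prime) (B : ℕ) :
    ∃ (k : Type) (_ : Field k) (_ : Fintype k), l ∣ Fintype.card k - 1 ∧ B ≤ Fintype.card k ∧ (2 : k) ≠ 0 := by
  obtain ⟨p, hp, hp2, hpl⟩ : ∃ p : ℕ, p.Prime ∧ ¬ p ∣ 2 ∧ p ≠ l := by
    by_cases h3 : l = 3
    · exact ⟨5, by norm_num, by norm_num, by omega⟩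
    · exact ⟨3, by norm_num, by norm_num, fun h => h3 h.symm⟩
  have : Fact p.Prime := ⟨hp⟩
  have hm : (l - 1) * (B + 1) ≠ 0 := Nat.mul_ne_zero (by have := hl.two_le; omega) (by omega)
  let k := GaloisField p ((l - 1) * (B + 1))
  let _ : Fintype k := Fintype.ofFinite k
  have hcard : Fintype.card k = p ^ ((l - 1) * (B + 1)) := by
    rw [← Nat.card_eq_fintype_card]
    exact GaloisField.card p _ hm
  refine ⟨k, inferInstance, inferInstance, ?_, ?_, ?_⟩
  · rw [hcard]
    have hcop : Nat.Coprime p l := (Nat.coprime_primes hp hl).2 hpl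
    have h1 : p ^ (l - 1) ≡ 1 [MOD l] := by
      have := Nat.ModEq.pow_totient hcop
      rwa [Nat.totient_prime hl] at this
    have h2 : p ^ ((l - 1) * (B + 1)) ≡ 1 [MOD l] := by
      rw [pow_mul]
      simpa using h1.pow (B + 1)
    exact (Nat.modEq_iff_dvd' (Nat.one_le_pow _ _ hp.pos)).1 h2.symm
  · rw [hcard]
    have h1 : B + 1 ≤ (l - 1) * (B + 1) := Nat.le_mul_of_pos_left _ (by have := hl.two_le; omega)
    have h2 : (l - 1) * (B + 1) < p ^ ((l - 1) * (B + 1)) := Nat.lt_pow_self hp.one_lt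
    omega
  · intro h
    have h' : ((2 : ℕ) : k) = 0 := by exact_mod_cast h
    exact hp2 ((CharP.cast_eq_zero_iff k p 2).1 h')

/-! ## 3. the functional `δ_M` and the collected inputs -/

section Spans

variable (R : Type) [CommRing R] (n : ℕ)

/-- `f_i^p F` -/
noncomputable def topSpan (i : Fin n) (p : ℕ) : Submodule R (FreeAlgebra R (Fin n)) :=
  Submodule.span R {x | ∃ u, x = fgen R n i ^ p * u}

/-- `F f_i^p` -/
noncomputable def socSpan (i : Fin n) (p : ℕ) : Submodule R (FreeAlgebra R (Fin n)) :=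
  Submodule.span R {x | ∃ u, x = u * fgen R n i ^ p}

end Spans

/-- **What package E uses about the chain count functional `δ_M`** (`δ_M (w) = N_w(M) mod l`).
`<` on `List ℕ` is the lexicographic order. -/
structure IsDelta (l : ℕ) {k : Type} [Field k] {n : ℕ} {d : Fin n → ℕ} (M : PiMod k n d)
    (δ : FreeAlgebra (ZMod l) (Fin n) →ₗ[ZMod l] ZMod l) : Prop where
  /-- A2 -/
  serre : ∀ u v i j, δ (u * serreElt (ZMod l) n i j * v) = 0
  /-- A3 -/
  top : ∀ i p u, M.top i < p → δ (fgen (ZMod l) n i ^ p * u) = 0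
  /-- A3 + A6 -/
  soc : ∀ i p u, M.soc i < p → δ (u * fgen (ZMod l) n i ^ p) = 0
  /-- A5 -/
  str_ne : ∀ i₀, δ (wordMon (ZMod l) n (strWord (k2Seq n d i₀) (M.str (k2Seq n d i₀)))) ≠ 0
  /-- A5 -/
  str_zero : ∀ i₀ c, c.length = (k2Seq n d i₀).length → M.str (k2Seq n d i₀) < c →
    δ (wordMon (ZMod l) n (strWord (k2Seq n d i₀) c)) = 0
  /-- A5 + A6 -/
  cstr_ne : ∀ i₀, δ (wordMon (ZMod l) n (strWord (k2Seq n d i₀) (M.dual.str (k2Seq n d i₀))).reverse) ≠ 0
  /-- A5 + A6 -/
  cstr_zero : ∀ i₀ c, c.length = (k2Seq n d i₀).length → M.dual.str (k2Seq n d i₀) < c →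
    δ (wordMon (ZMod l) n (strWord (k2Seq n d i₀) c).reverse) = 0

/-- package A, collected -/
theorem k2a_exists_delta (n : ℕ) (_hn : 2 ≤ n) (d : Fin n → ℕ) (l : ℕ) (hl : l.Prime) (hd : ∑ i, d i < l)
    (k : Type) [Field k] [Fintype k] (hk : l ∣ Fintype.card k - 1) (M : PiMod k n d) :
    ∃ δ, IsDelta l M δ := by
  have : Fact l.Prime := ⟨hl⟩
  have hq : ((Fintype.card k : ℕ) : ZMod l) = 1 := by
    have h0 : ((Fintype.card k - 1 : ℕ) : ZMod l) = 0 := (ZMod.natCast_eq_zero_iff _ _).2 hk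
    rw [Nat.cast_sub Fintype.card_pos, Nat.cast_one, sub_eq_zero] at h0
    exact h0
  have hf : ∀ m : ℕ, 0 < m → m ≤ ∑ i, d i → IsUnit (m : ZMod l) := by
    intro m hm hmd
    refine IsUnit.mk0 _ fun h0 => ?_
    have := Nat.le_of_dvd hm ((ZMod.natCast_eq_zero_iff _ _).1 h0)
    omega
  refine ⟨M.delta (ZMod l), ?_, ?_, ?_, ?_, ?_, ?_, ?_⟩
  · intro u v i j
    simp [PiMod.delta, PiRep.delta, PiRep.deltaAt, k2a_serre (ZMod l) M.toRep hq i j]
  · exact fun i p u h => k2a_top (ZMod l) M i p h u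
  · exact fun i p u h => k2a_soc (ZMod l) M i p h u
  · exact fun i₀ => (k2a_str_unit (ZMod l) M _ (k2a_exh M i₀) hq hf).ne_zero
  · exact fun i₀ c hc hlt => k2a_str_zero (ZMod l) M _ c hc hlt
  · intro i₀
    rw [← k2a_dual]
    exact (k2a_str_unit (ZMod l) M.dual _ (k2a_exh M.dual i₀) hq hf).ne_zero
  · intro i₀ c hc hlt
    rw [← k2a_dual]
    exact k2a_str_zero (ZMod l) M.dual _ c hc hlt

/-- package A, collected: strings.  (1) the string along `k2Seq n d i₀` has the length of the sequence and starts with `top_(i₀) M`;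
(2) the sequence exhausts `M` (A4), so the word of the string has content `d`; (3) tops of the dual are socles. -/
theorem k2a_str (n : ℕ) (_hn : 2 ≤ n) (d : Fin n → ℕ) (k : Type) [Field k] (M : PiMod k n d) (i₀ : Fin n) :
    (M.str (k2Seq n d i₀)).length = (k2Seq n d i₀).length ∧
    (M.str (k2Seq n d i₀)).head? = some (M.top i₀) ∧
    (∀ i, (strWord (k2Seq n d i₀) (M.str (k2Seq n d i₀))).count i = d i) ∧
    M.dual.top i₀ = M.soc i₀ := by
  refine ⟨k2a_str_length M _, ?_, k2a_count M _ (k2a_exh M i₀), s6_dual_top M i₀⟩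
  obtain ⟨cs, h⟩ := k2a_str_cons M i₀ (List.replicate (∑ i, d i) (List.finRange n)).flatten
  rw [k2Seq, h]
  rfl

/-- bridge B → D: for modules supported on the oriented arrows, an isomorphism of the oriented parts is an isomorphism -/
theorem k2e_iso_of_qiso {k : Type} [Field k] {n : ℕ} {d : Fin n → ℕ} {X X' : PiMod k n d} (hX : X.IsOr)
    (hX' : X'.IsOr) (h : QIso X X') : X.Iso X' := by
  obtain ⟨g, hg⟩ := h
  refine ⟨fun i => (g i).val, fun i => (g i).isUnit, fun i j => ?_⟩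
  rcases lt_trichotomy i j with hij | hij | hij
  · rw [← hg i j hij, PiMod.act_a, Matrix.mul_assoc, ← Units.val_mul, inv_mul_cancel, Units.val_one, Matrix.mul_one]
  · subst hij
    rw [X.zero i i (k2d_not_adj_self n i), X'.zero i i (k2d_not_adj_self n i), Matrix.zero_mul, Matrix.mul_zero]
  · rw [hX i j hij, hX' i j hij, Matrix.zero_mul, Matrix.mul_zero]

/-- package D in the form used here (from `k2d_main`, `k2a_exh`) -/
theorem k2e_generic (n : ℕ) (d : Fin n → ℕ) :
    ∃ q₀ : ℕ, ∀ (k : Type) [Field k] [Fintype k], q₀ ≤ Fintype.card k →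
      ∀ (I : Type) (x : I → PiMod k n d), (∀ m, (x m).IsOr) →
        (∀ m m', (x m).Iso (x m') → m = m') →
        ∃ Mf : I → PiMod k n d, ∀ i₀ : Fin n,
          Function.Injective (fun m => (Mf m).str (k2Seq n d i₀)) ∧
          Function.Injective (fun m => (Mf m).dual.str (k2Seq n d i₀)) := by
  obtain ⟨q₀, h⟩ := k2d_main n d (Finset.univ.image (k2Seq n d))
  refine ⟨q₀, fun k _ _ hq I x hx hx' => ?_⟩
  obtain ⟨M, -, hM⟩ := h k hq
    (fun w hw M => by
      obtain ⟨i₀, -, rfl⟩ := Finset.mem_image.1 hw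
      exact k2a_exh M i₀)
    I x (fun m m' hne hQ => hne (hx' m m' (k2e_iso_of_qiso (hx m) (hx m') hQ)))
  refine ⟨M, fun i₀ => ⟨fun m m' hmm => ?_, fun m m' hmm => ?_⟩⟩
  · by_contra hne
    exact hM _ (Finset.mem_image_of_mem _ (Finset.mem_univ i₀)) false m m' hne hmm
  · by_contra hne
    exact hM _ (Finset.mem_image_of_mem _ (Finset.mem_univ i₀)) true m m' hne hmm

/-- packages B + C + D, collected.  `T = KP n d`.
First part = C2 (ordered monomials span `U_d`, any field with `2 ≠ 0`).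
Second part = B (bricks, `x_m` pairwise non-isomorphic) + D (generic `y`, strings pairwise distinct for the `2n` sequences). -/
theorem k2_family (n : ℕ) (hn : 2 ≤ n) (d : Fin n → ℕ) :
    ∃ (T : Type) (_ : Fintype T) (q₀ : ℕ),
      (∀ (K : Type) [Field K], (2 : K) ≠ 0 → ∃ P : T → FreeAlgebra K (Fin n),
        ∀ w : List (Fin n), (∀ i, w.count i = d i) →
          wordMon K n w ∈ Submodule.span K (Set.range P) ⊔ serreSpan K n) ∧
      (∀ (l : ℕ) (k : Type) [Field k] [Fintype k], l.Prime → 2 < l → ∑ i, d i < l →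
        l ∣ Fintype.card k - 1 → q₀ ≤ Fintype.card k → (2 : k) ≠ 0 →
        ∃ M : T → PiMod k n d,
          (∀ i₀, Function.Injective fun m => (M m).str (k2Seq n d i₀)) ∧
          (∀ i₀, Function.Injective fun m => (M m).dual.str (k2Seq n d i₀))) := by
  obtain ⟨q₀, hD⟩ := k2e_generic n d
  refine ⟨KP n d, inferInstance, q₀, ?_, ?_⟩
  · intro K _ h2
    refine ⟨fun s => pbwMon K n s.1, fun w hw => ?_⟩
    obtain rfl : (fun i => w.count i) = d := funext hw
    exact k2c_span K n (IsUnit.mk0 _ h2) hn w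
  · intro l k _ _ hl h2 hd hk hq _
    obtain ⟨x, hx, hx'⟩ := k2b_bricks n hn d l hl h2 hd k hk
    obtain ⟨Mf, hMf⟩ := hD k hq (KP n d) x hx hx'
    exact ⟨Mf, fun i₀ => (hMf i₀).1, fun i₀ => (hMf i₀).2⟩

/-! ## 4. modules versus the double quotient over `ZMod l` -/


section Words

variable (R : Type) [CommRing R] (n : ℕ)

theorem k2e_serreSpan_le_dqIdeal (a b : Fin n → ℕ) : serreSpan R n ≤ dqIdeal R n a b :=
  le_sup_of_le_left le_sup_left

theorem k2e_topSpan_le_dqIdeal (a b : Fin n → ℕ) (i : Fin n) : topSpan R n i (a i + 1) ≤ dqIdeal R n a b := by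
  refine le_sup_of_le_left (le_sup_of_le_right (span_mono ?_))
  rintro _ ⟨u, rfl⟩
  exact ⟨u, i, rfl⟩

theorem k2e_socSpan_le_dqIdeal (a b : Fin n → ℕ) (i : Fin n) : socSpan R n i (b i + 1) ≤ dqIdeal R n a b := by
  refine le_sup_of_le_right (span_mono ?_)
  rintro _ ⟨u, rfl⟩
  exact ⟨u, i, rfl⟩

theorem k2e_strWord_cons (i : Fin n) (s : List (Fin n)) (c : ℕ) (cs : List ℕ) :
    strWord (i :: s) (c :: cs) = List.replicate c i ++ strWord s cs := rfl

theorem k2e_wordMon_strWord_mem_topSpan (i : Fin n) (s : List (Fin n)) (c : ℕ) (cs : List ℕ) {p : ℕ} (hp : p ≤ c) :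
    wordMon R n (strWord (i :: s) (c :: cs)) ∈ topSpan R n i p := by
  rw [k2e_strWord_cons, wordMon_append, wordMon_replicate]
  obtain ⟨r, rfl⟩ := Nat.exists_eq_add_of_le hp
  rw [pow_add, mul_assoc]
  exact subset_span ⟨_, rfl⟩

theorem k2e_wordMon_strWord_reverse_mem_socSpan (i : Fin n) (s : List (Fin n)) (c : ℕ) (cs : List ℕ) {p : ℕ}
    (hp : p ≤ c) : wordMon R n (strWord (i :: s) (c :: cs)).reverse ∈ socSpan R n i p := by
  rw [k2e_strWord_cons, List.reverse_append, List.reverse_replicate, wordMon_append, wordMon_replicate]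
  obtain ⟨r, rfl⟩ := Nat.exists_eq_add_of_le hp
  rw [add_comm, pow_add, ← mul_assoc]
  exact subset_span ⟨_, rfl⟩

end Words

theorem k2e_head_le {c c' : List ℕ} {x y : ℕ} (h : c ≤ c') (hc : c.head? = some x) (hc' : c'.head? = some y) :
    x ≤ y := by
  cases c with
  | nil => simp at hc
  | cons x' t =>
    cases c' with
    | nil => simp at hc'
    | cons y' t' =>
      simp only [List.head?_cons, Option.some.injEq] at hc hc'
      subst hc hc'
      rcases h.lt_or_eq with h | h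
      · rcases List.cons_lt_cons_iff.1 h with h | h
        · exact h.le
        · exact h.1.le
      · exact (List.cons.inj h).1.le

theorem k2e_eq_cons {c : List ℕ} {x : ℕ} (hc : c.head? = some x) : ∃ t, c = x :: t := by
  cases c with
  | nil => simp at hc
  | cons x' t =>
    simp only [List.head?_cons, Option.some.injEq] at hc
    exact ⟨t, by rw [hc]⟩

variable {n : ℕ} {d : Fin n → ℕ} {k : Type} [Field k]

theorem IsDelta.dqIdeal_le {l : ℕ} {M : PiMod k n d} {δ : FreeAlgebra (ZMod l) (Fin n) →ₗ[ZMod l] ZMod l}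
    (h : IsDelta l M δ) {a b : Fin n → ℕ} (hM : M.Bdd a b) : dqIdeal (ZMod l) n a b ≤ LinearMap.ker δ := by
  refine sup_le (sup_le (span_le.2 ?_) (span_le.2 ?_)) (span_le.2 ?_)
  · rintro _ ⟨u, v, i, j, rfl⟩
    exact h.serre u v i j
  · rintro _ ⟨u, i, rfl⟩
    exact h.top i _ u (Nat.lt_succ_of_le (hM i).1)
  · rintro _ ⟨u, i, rfl⟩
    exact h.soc i _ u (Nat.lt_succ_of_le (hM i).2)

/-- a module with the bounds gives a non-zero double quotient over `F_l` -/
theorem k2e_dqne_of_mod (hn : 2 ≤ n) (a b : Fin n → ℕ) (l : ℕ) (hl : l.Prime) (hd : ∑ i, d i < l)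
    [Fintype k] (hk : l ∣ Fintype.card k - 1) (M : PiMod k n d) (hM : M.Bdd a b) :
    DQne (ZMod l) n a b d := by
  obtain ⟨δ, hδ⟩ := k2a_exists_delta n hn d l hl hd k hk M
  let i₀ : Fin n := ⟨0, by omega⟩
  refine ⟨strWord (k2Seq n d i₀) (M.str (k2Seq n d i₀)), (k2a_str n hn d k M i₀).2.2.1, fun hmem => ?_⟩
  exact hδ.str_ne i₀ (hδ.dqIdeal_le hM hmem)

/-- a non-zero double quotient over `F_l` gives a module with the bounds in the family -/
theorem k2e_exists_mod (hn : 2 ≤ n) (a b : Fin n → ℕ) (l : ℕ) (hl : l.Prime) (hd : ∑ i, d i < l)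
    [Fintype k] (hk : l ∣ Fintype.card k - 1) {T : Type} [Fintype T]
    (P : T → FreeAlgebra (ZMod l) (Fin n))
    (hP : ∀ w : List (Fin n), (∀ i, w.count i = d i) →
      wordMon (ZMod l) n w ∈ span (ZMod l) (Set.range P) ⊔ serreSpan (ZMod l) n)
    (M : T → PiMod k n d)
    (hinj : ∀ i₀, Function.Injective fun m => (M m).str (k2Seq n d i₀))
    (hinj' : ∀ i₀, Function.Injective fun m => (M m).dual.str (k2Seq n d i₀))
    (h : DQne (ZMod l) n a b d) : ∃ m, (M m).Bdd a b := by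
  have : Fact l.Prime := ⟨hl⟩
  by_contra hcon
  push Not at hcon
  choose δ hδ using fun m => k2a_exists_delta n hn d l hl hd k hk (M m)
  obtain ⟨w, hw, hwn⟩ := h
  have hstr := fun m i₀ => k2a_str n hn d k (M m) i₀
  have hstr' := fun m i₀ => k2a_str n hn d k (M m).dual i₀
  have key := k2e_core (K := ZMod l) (J := Fin n × Bool)
    {x | ∃ w : List (Fin n), (∀ i, w.count i = d i) ∧ x = wordMon (ZMod l) n w} (serreSpan (ZMod l) n) P
    (by rintro _ ⟨w, hw, rfl⟩; exact hP w hw) δ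
    (fun m => span_le.2 (by rintro _ ⟨u, v, i, j, rfl⟩; exact (hδ m).serre u v i j))
    (fun τ m => if τ.2 then (M m).str (k2Seq n d τ.1) else (M m).dual.str (k2Seq n d τ.1))
    (by
      rintro ⟨i, _ | _⟩
      · simpa using hinj' i
      · simpa using hinj i)
    (fun τ m => if τ.2 then wordMon (ZMod l) n (strWord (k2Seq n d τ.1) ((M m).str (k2Seq n d τ.1)))
      else wordMon (ZMod l) n (strWord (k2Seq n d τ.1) ((M m).dual.str (k2Seq n d τ.1))).reverse)
    (by
      rintro ⟨i, _ | _⟩ m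
      · exact ⟨_, fun j => by rw [List.count_reverse]; exact (hstr' m i).2.2.1 j, by simp⟩
      · exact ⟨_, (hstr m i).2.2.1, by simp⟩)
    (by
      rintro ⟨i, _ | _⟩ m
      · simpa using (hδ m).cstr_ne i
      · simpa using (hδ m).str_ne i)
    (by
      rintro ⟨i, _ | _⟩ m m' hlt
      · simp only [Bool.false_eq_true, if_false] at hlt ⊢
        exact (hδ m).cstr_zero i _ (hstr' m' i).1 hlt
      · simp only [if_true] at hlt ⊢
        exact (hδ m).str_zero i _ (hstr m' i).1 hlt)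
    (fun τ => if τ.2 then topSpan (ZMod l) n τ.1 (a τ.1 + 1) else socSpan (ZMod l) n τ.1 (b τ.1 + 1))
    (fun τ m => if τ.2 then a τ.1 < (M m).top τ.1 else b τ.1 < (M m).soc τ.1)
    (by
      rintro ⟨i, _ | _⟩ m m' hb hle
      · simp only [Bool.false_eq_true, if_false] at hb hle ⊢
        have := k2e_head_le hle (hstr' m i).2.1 (hstr' m' i).2.1
        rw [(hstr m i).2.2.2, (hstr m' i).2.2.2] at this
        omega
      · simp only [if_true] at hb hle ⊢
        have := k2e_head_le hle (hstr m i).2.1 (hstr m' i).2.1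
        omega)
    (by
      rintro ⟨i, _ | _⟩ m hb
      · simp only [Bool.false_eq_true, if_false] at hb ⊢
        obtain ⟨t, ht⟩ := k2e_eq_cons (hstr' m i).2.1
        rw [ht, (hstr m i).2.2.2]
        exact k2e_wordMon_strWord_reverse_mem_socSpan _ n i _ _ t hb
      · simp only [if_true] at hb ⊢
        obtain ⟨t, ht⟩ := k2e_eq_cons (hstr m i).2.1
        rw [ht]
        exact k2e_wordMon_strWord_mem_topSpan _ n i _ _ t hb)
    (by
      intro m
      have := hcon m
      unfold PiMod.Bdd at this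
      push Not at this
      obtain ⟨i, hi⟩ := this
      by_cases h1 : (M m).top i ≤ a i
      · exact ⟨(i, false), by simpa using hi h1⟩
      · exact ⟨(i, true), by simpa using h1⟩)
    (wordMon (ZMod l) n w) ⟨w, hw, rfl⟩
  refine hwn (sup_le (k2e_serreSpan_le_dqIdeal _ n a b) (iSup_le ?_) key)
  rintro ⟨i, _ | _⟩
  · simpa using k2e_socSpan_le_dqIdeal _ n a b i
  · simpa using k2e_topSpan_le_dqIdeal _ n a b i

/-! ## 5. the two contracts -/

/-- = `k2_fwd` -/
theorem k2e_fwd (n : ℕ) (hn : 2 ≤ n) (a b d : Fin n → ℕ) (h : DQne ℚ n a b d)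
    (l : ℕ) (hl : l.Prime) (h2 : 2 < l) (hd : ∑ i, d i < l) (B : ℕ) : HasModMod l B n a b d := by
  have : Fact l.Prime := ⟨hl⟩
  have hl' := k2e_dqne_modl_of_rat n a b d h l hl
  obtain ⟨T, _, q₀, hC, hBD⟩ := k2_family n hn d
  obtain ⟨k, _, _, hk1, hk2, hk3⟩ := k2e_exists_field l hl (max B q₀)
  have h2l : (2 : ZMod l) ≠ 0 := by
    intro h0
    have h0' : ((2 : ℕ) : ZMod l) = 0 := by exact_mod_cast h0
    have := Nat.le_of_dvd (by norm_num) ((ZMod.natCast_eq_zero_iff 2 l).1 h0')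
    omega
  obtain ⟨P, hP⟩ := hC (ZMod l) h2l
  obtain ⟨M, hM, hM'⟩ := hBD l k hl h2 hd hk1 ((le_max_right _ _).trans hk2) hk3
  obtain ⟨m, hm⟩ := k2e_exists_mod hn a b l hl hd hk1 P hP M hM hM' hl'
  exact ⟨k, _, _, hk1, (le_max_left _ _).trans hk2, hk3, M m, hm⟩

/-- = `k2_bwd` -/
theorem k2e_bwd (n : ℕ) (hn : 2 ≤ n) (a b d : Fin n → ℕ)
    (h : ∀ B : ℕ, ∃ l, B < l ∧ l.Prime ∧ HasModMod l 0 n a b d) : DQne ℚ n a b d := by
  refine k2e_dqne_rat_of_modl n a b d fun B => ?_
  obtain ⟨l, hlB, hl, k, _, _, hk1, -, -, M, hM⟩ := h (max B (∑ i, d i))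
  exact ⟨l, (le_max_left _ _).trans_lt hlB, hl,
    k2e_dqne_of_mod hn a b l hl ((le_max_right _ _).trans_lt hlB) hk1 M hM⟩

end Claimed.Agent.R282
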